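import Mathlib

/-!
2-to-1 games.
-/

namespace Vale.Agent.Lib.P339

/-- A 2-to-1 game with alphabets `[2q]` (left) and `[q]` (right): finite vertex sets `U`, `V`,
a nonempty finite index set `E` of constraints `e = (u_e, v_e, π_e)`, a probability distribution `μ`
on `E`, and every `π_e : [2q] → [q]` has all fibres of size exactly `2`. -/
structure Game (q : ℕ) where
  U : Type
  V : Type
  E : Type
  fintypeU : Fintype U
  fintypeV : Fintype V
  fintypeE : Fintype E
  nonemptyE : Nonempty E
  src : E → U
  tgt : E → V
  proj : E → Fin (2 * q) → Fin q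
  μ : E → ℝ
  μ_nonneg : ∀ e, 0 ≤ μ e
  μ_sum : ∑ e, μ e = 1
  two_to_one : ∀ e b, (Finset.univ.filter fun a => proj e a = b).card = 2

namespace Game

variable {q : ℕ} (G : Game q)

instance : Fintype G.U := G.fintypeU
instance : Fintype G.V := G.fintypeV
instance : Fintype G.E := G.fintypeE

/-- The labeling `(A, B)` satisfies the constraint `e`. -/
def Sat (A : G.U → Fin (2 * q)) (B : G.V → Fin q) (e : G.E) : Prop :=
  G.proj e (A (G.src e)) = B (G.tgt e)

/-- The `μ`-probability that a random constraint is satisfied by the labeling `(A, B)`. -/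
noncomputable def satProb (A : G.U → Fin (2 * q)) (B : G.V → Fin q) : ℝ :=
  ∑ e, if G.proj e (A (G.src e)) = B (G.tgt e) then G.μ e else 0

/-- The value of the game: the maximum of `satProb` over all labelings. -/
noncomputable def value : ℝ :=
  ⨆ L : (G.U → Fin (2 * q)) × (G.V → Fin q), G.satProb L.1 L.2

end Game

end Vale.Agent.Lib.P339
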